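import Crest.Agent.X212.Sf30.P2Bas
import Crest.Agent.X212.Reg33.Num

/-!
# X212 / Conv33 (helper33): `0/1` surfaces: span, signed counts, arcs and suture crossings
-/

set_option autoImplicit false
set_option linter.unusedSectionVars false

open Finset Classical

noncomputable section

namespace Crest.Agent.X212.Conv33

open Crest.Agent.X212.Hp13 Alg36 Cut21 Ind26 Pt30
open Sf30 hiding Inn
open Sup43 (Inn inn_up inn_sub nice_inn)
open Kh11 (WS sctr_min In)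

variable {P : Type} [PartialOrder P] [Fintype P] {A M : Set P} {e : P → P → ℤ}

section spn

variable [IsCoc M e] {T : Set (Lv M e)}

theorem nlev_z1 (h : Z1 M e) {c : Ch P} (hc : Dom M c) :
    nlev T c 0 (e c.bot c.top) = ind (ch '' T) c := by
  by_cases k : c ∈ ch '' T
  · obtain ⟨p, hp, rfl⟩ := k
    have : (Ico (0 : ℤ) 1).filter (lev T (ch p)) = {0} := by
      ext k
      simp only [mem_filter, mem_Ico, mem_singleton]
      exact ⟨fun j => by omega, fun j => ⟨by omega, p, hp, rfl, j ▸ h.lv0 p⟩⟩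
    rw [ind_of_mem (Set.mem_image_of_mem _ hp), le_antisymm (h.le _ _ hc.bt) (ch_mem p).2, nlev, this]
    rfl
  · rw [ind_of_not k, nlev, filter_false_of_mem fun j _ ⟨p, hp, l, _⟩ => k ⟨p, hp, l⟩]
    rfl

theorem spn_zsmul {u : P → P → ℤ} (h : Spn M e u) (k : ℤ) : Spn M e (k • u) := by
  induction k using Int.induction_on with
  | zero => rw [zero_smul, ← cb_zero]; exact Spn.cb 0
  | succ n ih => rw [add_smul, one_smul]; exact ih.add h
  | pred n ih => rw [sub_smul, one_smul, sub_eq_add_neg]; exact ih.add h.neg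

theorem spn_sum (s : Finset ℤ) {u : ℤ → P → P → ℤ} (h : ∀ k, Spn M e (u k)) :
    Spn M e (∑ k ∈ s, u k) :=
  sum_induction _ _ (fun _ _ a b => a.add b) (cb_zero (P := P) (G := ℤ) ▸ Spn.cb 0) fun k _ => h k

/-- exact off the surface means spanned by the components -/
theorem spn_of (h : Z1 M e) (hs : Spn1 M e) (w : P → P → ℤ) (hw : Coc M w) : Spn M e w := by
  obtain ⟨g, hg⟩ := hs w hw
  have hu : Coc M (w - cb g) := hw.sub (coc_cb g)
  have u0 : ∀ x y, Dp M x y → e x y = 0 → (w - cb g) x y = 0 :=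
    fun x y a b => sub_eq_zero.2 (hg x y a b)
  let n : Lv M e → ℤ := fun p => (w - cb g) (ch p).bot (ch p).top
  have sat : ∀ k, Sat {p | n p = k} := fun k p q l => by
    have l' : ch p ≤ ch q := lv_ch_le l
    have d := (ch_mem q).1
    have : n q = n p := by
      simp only [n]
      rw [hu.add' d (ch q).bot_mem (l' (ch p).bot_mem) (ch q).top_mem (Ch.bot_anti l')
        (Ch.le_top (l' (ch p).bot_mem)), hu.add' d (l' (ch p).bot_mem) (l' (ch p).top_mem)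
        (ch q).top_mem (ch p).bot_le_top (Ch.top_mono l'),
        u0 _ _ (d.dp (ch q).bot_mem (l' (ch p).bot_mem) (Ch.bot_anti l')) (h.bot_bot d l' (ch_mem p).2),
        u0 _ _ (d.dp (l' (ch p).top_mem) (ch q).top_mem (Ch.top_mono l')) (h.top_top d l' (ch_mem p).2),
        zero_add, add_zero]
    simp only [Set.mem_ofPred_eq, this]
  refine ((spn_sum (univ.image n) fun k => spn_zsmul (Spn.part (sat k)) k).add (Spn.cb g)).congr
    fun x y hp => ?_
  have d := (dom_pr hp.1).2 hp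
  have c : ∀ k, cnt {p | n p = k} x y = ind (ch '' {p | n p = k}) (Ch.pr x y hp.1) := fun k => by
    rw [← nlev_z1 h d, cnt, dif_pos hp.1, Ch.bot_pr, Ch.top_pr]
  simp only [Pi.add_apply, Finset.sum_apply, Pi.smul_apply, c, smul_eq_mul]
  rw [← sub_eq_iff_eq_add]
  change (w - cb g) x y = _
  by_cases k : 0 < e x y
  · have q : Ch.pr x y hp.1 ∈ Qe M e := ⟨d, by simpa using k⟩
    rw [sum_eq_single_of_mem (n (cel q)) (mem_image_of_mem _ (mem_univ _)) fun j _ hj =>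
      mul_eq_zero_of_right _ (ind_of_not (E := ch '' _) fun ⟨p, a, b⟩ =>
        hj (h.ch_inj (q := cel q) b ▸ a.symm)),
      ind_of_mem (E := ch '' {p | n p = n (cel q)}) (x := Ch.pr x y hp.1) ⟨cel q, rfl, rfl⟩, mul_one]
    simp [n]
  · rw [u0 x y hp (le_antisymm (not_lt.1 k) (h.mono x y hp)), sum_eq_zero fun j _ =>
      mul_eq_zero_of_right _ (ind_of_not (E := ch '' _) fun ⟨p, _, b⟩ =>
        k (by simpa [b] using (ch_mem p).2))]

end spn

/-- flags of faces with three members of prescribed kinds -/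
theorem ctr3 {d h m : Ch P} (h1 : h ≤ m) (h2 : m ≤ d) {p q r : Set (Ch P)}
    (hp : ∀ c ≤ d, c ∈ p → c ≤ m) (ph : h ∈ p) (pm : m ∈ p) (hq : ∀ c ≤ d, c ∈ q → c ≤ h)
    (qh : h ∈ q) (hr : ∀ c ∈ r, ∀ c' ≤ d, c ≤ c' → c' ∈ r) (rm : m ∈ r) :
    Ctr (In {c | c ≤ d} {C | Mt p C ∧ Mt q C ∧ Mt r C}) := by
  let E : Ch (Ch P) := tp (Ch.pr h m h1) d (by simpa using h2)
  have mE : ∀ c, c ∈ E.1 ↔ c = d ∨ c = h ∨ c = m := fun c => by simp [E]
  have k : ∀ {z w : Ch P}, (z ∈ p → w ∈ p) → (z ∈ q → w ∈ q) → (z ∈ r → w ∈ r) →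
      Kh11.Rpl {C | Mt p C ∧ Mt q C ∧ Mt r C} z w := fun {z w} a1 a2 a3 C D i j l => by
    have : ∀ s : Set (Ch P), (z ∈ s → w ∈ s) → Mt s C → Mt s D := fun s a ⟨x, x1, x2⟩ => by
      rw [j] at x1
      exact (mem_insert.1 x1).elim (fun b => ⟨w, i, a (b ▸ x2)⟩) fun b => ⟨x, b, x2⟩
    exact ⟨this _ a1 l.1, this _ a2 l.2.1, this _ a3 l.2.2⟩
  refine (Kh11.beat_clo (D := (E.1 : Set (Ch P))) (F := {C | Mt p C ∧ Mt q C ∧ Mt r C})
    (fun _ a _ l => ⟨a.1.mono l, a.2.1.mono l, a.2.2.mono l⟩) (fun c a => ?_) fun z hz => ?_).ctr_iff.1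
    (Kh11.ctr_in_chain E ⟨⟨h, (mE _).2 (by simp), ph⟩, ⟨h, (mE _).2 (by simp), qh⟩,
      m, (mE _).2 (by simp), rm⟩)
  · rcases (mE _).1 a with rfl | rfl | rfl
    exacts [le_refl c, h1.trans h2, h2]
  by_cases a : z ≤ h
  · refine ⟨h, (mE _).2 (by simp), a, fun c b _ => ?_,
      k (fun _ => ph) (fun _ => qh) fun b => hr _ b _ (h1.trans h2) a⟩
    rcases (mE _).1 b with rfl | rfl | rfl
    exacts [h1.trans h2, le_rfl, h1]
  by_cases a' : z ≤ m
  · refine ⟨m, (mE _).2 (by simp), a', fun c b l => ?_,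
      k (fun _ => pm) (fun b => absurd (hq _ hz b) a) fun _ => rm⟩
    rcases (mE _).1 b with rfl | rfl | rfl
    exacts [h2, absurd l a, le_rfl]
  · refine ⟨d, (mE _).2 (by simp), hz, fun c b l => ?_, k (fun b => absurd (hp _ hz b) a')
      (fun b => absurd (hq _ hz b) a) fun b => hr _ b _ le_rfl hz⟩
    rcases (mE _).1 b with rfl | rfl | rfl
    exacts [le_rfl, absurd l a, absurd l a']

theorem eu_cells {E : Set P} {s : Finset P} (hs : ∀ x, x ∈ s ↔ x ∈ E) (g : P → ℤ)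
    (hg : ∀ x ∈ E, ∀ t : Finset P, (∀ y, y ∈ t ↔ y ∈ E ∧ y ≤ x) → ∑ y ∈ t, g y = 1) :
    eu E = ∑ x ∈ s, g x := by
  rw [← Kh11.chi_fs, Kh11.chi_eq_cells (A := Kh11.fs E) (g := g)
    (fun x hx => hg x (Kh11.mem_fs.1 hx) _ (by simp)) (Kh11.low_self _)]
  exact sum_congr (by ext; simp [hs]) fun _ _ => rfl

/-- the mixed faces of a mixed chain -/
theorem sum_mixed (h : Z1 M e) {c : Ch P} (hc : c ∈ Qe M e) {t : Finset (Ch P)}
    (ht : ∀ d, d ∈ t ↔ d ≤ c ∧ 0 < e d.bot d.top) : ∑ d ∈ t, d.sg = 1 := by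
  have z := h.coc.add' hc.1 c.bot_mem c.bot_mem c.bot_mem le_rfl le_rfl
  rw [show t = (univ.filter (· ≤ c)).filter fun d => 0 < e d.bot d.top by ext; simp [ht],
    ← sum_faces_mix (A := {x | 0 < e c.bot x}) (c := c)
    ⟨⟨_, c.top_mem, hc.2⟩, _, c.bot_mem, fun k => by have : 0 < e c.bot c.bot := k; omega⟩,
    sum_filter]
  refine sum_congr rfl fun d hd => ?_
  have l : d ≤ c := (mem_filter.1 hd).2
  have a : ∀ x ∈ d.1, e c.bot x = e c.bot d.bot + e d.bot x ∧ e c.bot d.top = e c.bot x + e x d.top ∧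
      0 ≤ e d.bot x ∧ 0 ≤ e x d.top ∧ 0 ≤ e c.bot x := fun x hx =>
    ⟨h.coc.add' hc.1 c.bot_mem (l d.bot_mem) (l hx) (Ch.bot_anti l) (Ch.bot_le hx),
      h.coc.add' hc.1 c.bot_mem (l hx) (l d.top_mem) (Ch.bot_le (l hx)) (Ch.le_top hx),
      h.mono _ _ (hc.1.dp (l d.bot_mem) (l hx) (Ch.bot_le hx)),
      h.mono _ _ (hc.1.dp (l hx) (l d.top_mem) (Ch.le_top hx)),
      h.mono _ _ (hc.1.dp c.bot_mem (l hx) (Ch.bot_le (l hx)))⟩
  have b := h.le _ _ (hc.1.dp c.bot_mem (l d.top_mem) (Ch.bot_le (l d.top_mem)))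
  have t := a _ d.top_mem
  have u := a _ d.bot_mem
  split_ifs with k
  · rw [iMt_of ⟨_, d.top_mem, show 0 < e c.bot d.top by omega⟩,
      iMt_of ⟨_, d.bot_mem, show ¬ 0 < e c.bot d.bot by omega⟩, mul_one, mul_one]
  · by_cases j : 0 < e c.bot d.bot
    · rw [iMt_not (S := _ᶜ) fun ⟨x, i, o⟩ => o (show 0 < e c.bot x by have := a x i; omega),
        mul_zero, mul_zero]
    · rw [iMt_not fun ⟨x, i, o⟩ => by have := a x i; have : 0 < e c.bot x := o; omega,
        zero_mul, mul_zero]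

/-- the flags of a mixed chain that start on the high side -/
theorem sum_flag (h : Z1 M e) {d : Ch P} (hd : d ∈ Qe M e) :
    ∑ C ∈ univ.filter (fun C : Ch (Ch P) => C.top = d ∧ 0 < e d.bot C.bot.bot), C.sg = d.sg := by
  have z := h.coc.add' hd.1 d.bot_mem d.bot_mem d.bot_mem le_rfl le_rfl
  have a := Reg33.sum_lo (e := d) (l := {x | 0 < e d.bot x}ᶜ) (L := Mt {x | 0 < e d.bot x}ᶜ)
    ⟨_, d.bot_mem, fun k => by have : 0 < e d.bot d.bot := k; omega⟩
    ⟨_, d.top_mem, fun k => k hd.2⟩ (fun c _ k => ⟨_, c.top_mem, k _ c.top_mem⟩) fun _ _ k => k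
  have b := eps_ch d
  rw [eps, neg_inj, ← sum_filter_add_sum_filter_not _ fun C => 0 < e d.bot C.bot.bot,
    filter_filter, filter_filter] at b
  refine (add_eq_left.2 (Eq.trans (sum_congr ?_ fun _ _ => rfl) a)).symm.trans b
  refine filter_congr fun C _ => Iff.symm <| and_congr_right fun k =>
    ⟨fun j i => ?_, fun j c i => ⟨_, Ch.bot_le i C.bot.bot_mem, j⟩⟩
  obtain ⟨x, x1, x2⟩ := j _ C.bot_mem
  have l : C.bot ≤ d := k ▸ C.bot_le_top
  have := h.coc.add' hd.1 d.bot_mem (l C.bot.bot_mem) (l x1) (Ch.bot_anti l) (Ch.bot_le x1)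
  have := h.mono _ _ (hd.1.dp (l C.bot.bot_mem) (l x1) (Ch.bot_le x1))
  exact x2 (show 0 < e d.bot x by omega)

/-- the extensions of a boundary chain by inner points -/
theorem sum_join (hN : Nice M) {d : Ch P} (hd : Dom M d) (h : ¬ Mt M d) {t : Finset (Ch P)}
    (ht : ∀ c, c ∈ t ↔ d ≤ c ∧ (∀ x ∈ c.1, x ∈ (d.1 : Set P) ∪ M) ∧ Mt M c) :
    ∑ c ∈ t, c.sg = -d.sg := by
  have a := ((meet d ((d.1 : Set P) ∪ M) M fun x k => ⟨Or.inl k, fun j => h ⟨x, k, j⟩⟩).2 (by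
    convert hN d hd h using 1
    exact Set.ext fun x => ⟨fun k => ⟨k.1, k.2.2⟩, fun k => ⟨k.1, Or.inr k.1, k.2⟩⟩)).eu
  rw [eu_cells (s := t) (by exact ht) (fun c => -d.sg * c.sg) fun c hc u hu => ?_, ← mul_sum] at a
  · rw [← one_mul (∑ c ∈ _, _), ← d.sg_sq]
    linear_combination (-d.sg) * a
  · have l : d < c := lt_of_le_of_ne hc.1 fun k => h (k ▸ hc.2.2)
    have b := sum_Icc l
    rw [← add_sum_erase _ _ (a := d) (by simp [l.le]), sum_congr (s₂ := u) ?_ fun _ _ => rfl] at b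
    · rw [← mul_sum, ← d.sg_sq]
      linear_combination (-d.sg) * b
    · ext t
      simp only [mem_filter, mem_univ, true_and, mem_erase, hu]
      refine ⟨fun k => ⟨⟨k.2.1, fun x j => hc.2.1 x (k.2.2 j), by_contra fun j => k.1 (le_antisymm
          (fun x i => (hc.2.1 x (k.2.2 i)).resolve_right fun o => j ⟨x, i, o⟩) k.2.1)⟩, k.2.2⟩,
        fun k => ⟨fun j => h (j ▸ k.1.2.2), k.1.1, k.2⟩⟩

end Crest.Agent.X212.Conv33
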