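import Crest.Agent.X212.Conv33.Bas

/-!
# X212 / Conv33 (helper33): CONV, from the upper format of disc systems to the level format
-/

set_option autoImplicit false
set_option linter.unusedSectionVars false

open Finset Classical

noncomputable section

namespace Crest.Agent.X212.Conv33

open Crest.Agent.X212.Hp13 Alg36 Cut21 Pt30
open Ind26 hiding pr_le
open Sf30 hiding Inn
open Sup43 (Inn inn_up inn_sub nice_inn)
open Kh11 (WS sctr_min In)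

variable {P : Type} [PartialOrder P] [Fintype P] {A : Set P} {e : P → P → ℤ}

/-- standing hypotheses -/
structure Hy (A : Set P) (e : P → P → ℤ) : Prop where
  conv : A.OrdConnected
  mf : Mf 3 A
  nice : Nice A
  thick : Thick A
  z : Z1 (Inn A) e

/-- the boundary cells of `C` in `O₋` -/
def SS (A : Set P) (e : P → P → ℤ) (C : Set (Ch P)) : Set (Ch P) :=
  {d | d.top ∉ A ∧ 0 < e d.bot d.top ∧ ∃ c ∈ C, d ≤ c}

/-- the chains that meet `A` and are mixed under `A` -/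
def XX (A : Set P) (e : P → P → ℤ) : Set (Ch P) := {d | ∃ a ∈ d.1, a ∈ A ∧ 0 < e d.bot a}

theorem bot_le_cm {a c : Ch P} (k : Cm a c) : c.bot ≤ a.top :=
  k.elim (fun l => (Ch.bot_anti l).trans a.bot_le_top) fun l => Ch.le_top (l c.bot_mem)

theorem mx_xx {V : Set P} (k : V ⊆ A) : Mx V e ⊆ XX A e := fun c h => ⟨_, c.top_mem, k h.1, h.2⟩

namespace Hy

variable (h : Hy A e) {C : Set (Ch P)}
include h

theorem ex {a : P} (ha : a ∈ A) : ∃ i ∈ Inn A, a ≤ i := by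
  by_cases k : a ∈ Fr A
  · obtain ⟨i, h1, h2, h3⟩ := (h.thick.inn a k).ne
    exact ⟨i, ⟨h1, h3⟩, h2⟩
  · exact ⟨a, ⟨ha, k⟩, le_rfl⟩

theorem nn {x y a : P} (ha : a ∈ A) (h1 : x ≤ y) (h2 : y ≤ a) : 0 ≤ e x y :=
  let ⟨_, i, j⟩ := h.ex ha; h.z.nn i h1 (h2.trans j)

theorem le1 {x y a : P} (ha : a ∈ A) (h1 : x ≤ y) (h2 : y ≤ a) : e x y ≤ 1 :=
  let ⟨_, i, j⟩ := h.ex ha; h.z.le1 i h1 (h2.trans j)

theorem add {x y w a : P} (ha : a ∈ A) (h1 : x ≤ y) (h2 : y ≤ w) (h3 : w ≤ a) :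
    e x w = e x y + e y w :=
  let ⟨_, i, j⟩ := h.ex ha; h.z.add i h1 h2 (h3.trans j)

/-- an edge inside an edge -/
theorem le {x x' y y' a : P} (ha : a ∈ A) (h1 : x' ≤ x) (h2 : x ≤ y) (h3 : y ≤ y') (h4 : y' ≤ a) :
    e x y ≤ e x' y' := by
  have := h.add ha h1 h2 (h3.trans h4)
  have := h.add ha (h1.trans h2) h3 h4
  have := h.nn ha h1 (h2.trans (h3.trans h4))
  have := h.nn ha h3 h4
  omega

theorem rev : Z1 (Ch.top ⁻¹' A) (rev e) :=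
  ⟨fun _ ha _ _ _ h1 h2 k _ _ =>
      (h.add ha (Ch.bot_anti h2) (Ch.bot_anti h1) (bot_le_cm k)).trans (add_comm _ _),
    fun _ _ ⟨l, _, ha, k, _⟩ => h.nn ha (Ch.bot_anti l) (bot_le_cm k),
    fun _ _ ⟨l, _, ha, k, _⟩ => h.le1 ha (Ch.bot_anti l) (bot_le_cm k)⟩

theorem spn (hs : Spn1 (Inn A) e) : Spn1 (Ch.top ⁻¹' A) (Hp13.rev e) := fun w hw => by
  obtain ⟨v, g, v1, v2⟩ := Nice.exists_pb h.conv h.nice hw
  obtain ⟨g', hg⟩ := hs v (v1.mono inn_sub)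
  refine ⟨fun c => g c + rg v c + g' c.bot, fun c d hp k => ?_⟩
  have a := rev_eq v1 hp.dom_top hp.1
  obtain ⟨l, _, ha, j, -⟩ := id hp
  obtain ⟨i, i1, i2⟩ := h.ex ha
  have b := hg _ _ (dp_hi i1 (Ch.bot_anti l) ((bot_le_cm j).trans i2)) k
  rw [v2 c d hp]
  simp only [Hp13.rev, Pi.add_apply, Pi.neg_apply, cb] at a ⊢
  omega

theorem off {c d : Ch P} (hc : c.top ∈ A) (l : d ≤ c) (hd : d.top ∉ A) : ∀ x ∈ d.1, x ∉ A :=
  fun _ hx k => hd (h.conv.out k hc ⟨Ch.le_top hx, Ch.top_mono l⟩)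

theorem ni : Nice (Inn A) := nice_inn h.conv h.nice h.thick

/-- the number of crossings is twice the number of arcs -/
theorem two_sum (hC : IsCmp (Mx (Inn A) e) C) {t : Finset (Ch P)} (ht : ∀ d, d ∈ t ↔ d ∈ SS A e C) :
    2 * ∑ d ∈ t, d.sg = ep A e C := by
  have hM : Mf 3 (Inn A) := h.mf.mono inn_sub
  have q : ∀ d ∈ SS A e C, d ∈ Qe (Inn A) e := fun d ⟨_, a, c, b, l⟩ =>
    ⟨(dom_top (hC.sub b).1).mono l, a⟩
  have o : ∀ d ∈ SS A e C, ∀ x ∈ d.1, x ∉ A := fun d ⟨a, _, c, b, l⟩ => h.off (hC.sub b).1.1 l a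
  have mem : ∀ d ∈ SS A e C, ∀ c, d ≤ c → c.top ∈ Inn A → c ∈ C := fun d ⟨_, a, c, b, l⟩ c' l' k =>
    h.z.cmp_over inn_up h.ni hC a b l l' k
  have mt : ∀ d ∈ SS A e C, ∀ c, d ≤ c → Mt Aᶜ c := fun d a c l => ⟨_, l d.top_mem, a.1⟩
  have le : ∀ d ∈ SS A e C, ∀ c, d ≤ c → d ≤ rs Aᶜ c := fun d a c l x hx =>
    (mem_rs (mt d a c l)).2 ⟨l hx, o d a x hx⟩
  let K : Set (Ch P) := {c | c ∈ C ∧ ∃ d ∈ SS A e C, d ≤ c}
  have r : ∀ c ∈ K, rs Aᶜ c ∈ SS A e C := fun c ⟨a, d, b, l⟩ =>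
    ⟨((mem_rs (mt d b c l)).1 (Ch.top_mem _)).2, h.z.up ((dom_top (hC.sub a).1).mono
      (rs_le (mt d b c l))) (le d b c l) b.2.1, c, a, rs_le (mt d b c l)⟩
  obtain ⟨s, hs, e1⟩ : ∃ s : Finset (Ch P), (∀ c, c ∈ s ↔ c ∈ K) ∧ eu K = ∑ c ∈ s, c.sg :=
    ⟨_, by simp, h.z.eu_eq (S := K) hM (fun _ k => hC.sub k.1) fun _ _ l ⟨a, d, b, j⟩ =>
      ⟨hC.upper (mx_upper h.z inn_up subset_rfl) l a, d, b, j.trans l⟩⟩
  have e2 : eu K = eu (SS A e C) := eu_fib r (fun c ⟨_, d, b, l⟩ _ _ => rs_mono (mt d b c l))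
    fun d hd => by
      rw [← (ctr_over (d := d) (fun _ => True) trivial (Nice.ctr_ge inn_up.ordConnected h.ni
        ⟨fun k => hd.1 k.1, (dom_up inn_up).1 (q d hd).1⟩)).eu]
      congr 1
      exact Set.ext fun c => ⟨fun ⟨⟨a, d', b, l⟩, j⟩ => ⟨j.trans (rs_le (mt d' b c l)),
        (hC.sub a).1, trivial⟩, fun k => ⟨⟨mem d hd c k.1 k.2.1, d, hd, k.1⟩, le d hd c k.1⟩⟩
  have e3 : eu (SS A e C) = ∑ d ∈ t, d.sg := eu_cells ht _ fun d hd u hu =>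
    sum_mixed h.z (q d hd) fun y => (hu y).trans ⟨fun k => ⟨k.2, k.1.2.1⟩, fun k =>
      let ⟨_, _, c, a, l⟩ := id hd
      ⟨⟨o d hd _ (k.1 y.top_mem), k.2, c, a, k.1.trans l⟩, k.1⟩⟩
  have e4 : ∑ c ∈ s.filter (fun c => ¬ Mt (Fr A) c), c.sg = -∑ d ∈ t, d.sg := by
    rw [← sum_neg_distrib, ← sum_fiberwise_of_maps_to (t := t) (g := rs Aᶜ)
      fun c k => (ht _).2 (r c ((hs c).1 (mem_filter.1 k).1))]
    refine sum_congr rfl fun d hd => ?_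
    have hd := (ht d).1 hd
    refine sum_join h.ni (q d hd).1 (fun ⟨x, a, b⟩ => o d hd x a b.1) fun c => ?_
    simp only [mem_filter, hs]
    refine ⟨fun ⟨⟨⟨a, d', b, l⟩, j⟩, k⟩ => ⟨k ▸ rs_le (mt d' b c l), fun x hx => ?_, _, c.top_mem,
      (hC.sub a).1⟩, fun ⟨l, j, k⟩ => ⟨⟨⟨mem d hd c l ((mt_top inn_up).1 k), d, hd, l⟩,
        fun ⟨x, a, b⟩ => (j x a).elim (fun i => o d hd x i b.1) fun i => i.2 b⟩,
        le_antisymm (fun x hx => ?_) (le d hd c l)⟩⟩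
    · by_cases i : x ∈ A
      exacts [Or.inr ⟨i, fun m => j ⟨x, hx, m⟩⟩, Or.inl (k ▸ (mem_rs (mt d' b c l)).2 ⟨hx, i⟩)]
    · have := (mem_rs (mt d hd c l)).1 hx
      exact (j x this.1).resolve_right fun i => this.2 i.1
  have e5 : ∑ c ∈ s.filter (Mt (Fr A)), c.sg = ep A e C := by
    rw [ep, card_eq_sum_ones, Nat.cast_sum]
    refine sum_congr (Finset.ext fun c => ?_) fun c hc => ?_
    · simp only [mem_filter, mem_univ, true_and, hs]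
      exact ⟨fun ⟨⟨a, d, b, l⟩, y, y1, y2⟩ => ⟨a, _, l d.bot_mem, _, l d.top_mem, y, y1,
        d.bot_le_top, b.1, y2, b.2.1⟩, fun ⟨a, x, x1, y, y1, b, b1, l, y2, b2, k⟩ =>
        ⟨⟨a, Ch.pr x y l, ⟨by simpa using y2, by simpa using k, c, a, pr_le x1 y1⟩, pr_le x1 y1⟩,
          b, b1, b2⟩⟩
    · obtain ⟨a, x, x1, y, y1, b, b1, l, y2, b2, k⟩ := (mem_filter.1 hc).2
      have m := (hC.sub a).1
      have n1 : x ≠ y := fun i => by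
        rw [i, h.z.self m (Ch.le_top y1)] at k
        exact lt_irrefl _ k
      have x2 : x ∉ A := fun i => y2 (h.conv.out i m.1 ⟨l, Ch.le_top y1⟩)
      have c4 : ({x, y, b, c.top} : Finset P).card = 4 := by
        rw [card_insert_of_notMem, card_insert_of_notMem, card_pair fun i : b = c.top => m.2 (i ▸ b2)]
        · simp only [mem_insert, mem_singleton, not_or]
          exact ⟨fun i => y2 (i ▸ b2.1), fun i => y2 (i ▸ m.1)⟩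
        · simp only [mem_insert, mem_singleton, not_or]
          exact ⟨n1, fun i => x2 (i ▸ b2.1), fun i => x2 (i ▸ m.1)⟩
      have := card_le_card (s := {x, y, b, c.top}) (t := c.1) (by
        simp only [insert_subset_iff, singleton_subset_iff]; exact ⟨x1, y1, b1, c.top_mem⟩)
      have := hM.card_le c ⟨_, c.top_mem, m⟩
      rw [Ch.sg, show c.1.card = 4 by omega]
      rfl
  have := sum_filter_add_sum_filter_not s (Mt (Fr A)) fun c => c.sg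
  rw [e4, e5, ← e1, e2, e3] at this
  omega

theorem xx_tw {d : Ch P} (hd : d ∈ XX A e) : tw A d ∈ d.1 ∧ tw A d ∈ A ∧ 0 < e d.bot (tw A d) :=
  let ⟨a, a1, a2, a3⟩ := hd
  have := tw_mem (c := d) ⟨a, a1, a2⟩
  ⟨this.1, this.2, a3.trans_le (h.le this.2 le_rfl (Ch.bot_le a1) (le_tw a1 a2) le_rfl)⟩

theorem xx_up : IsUpperSet (XX A e) := fun _ _ l ⟨a, a1, a2, a3⟩ =>
  ⟨a, l a1, a2, a3.trans_le (h.le a2 (Ch.bot_anti l) (Ch.bot_le a1) le_rfl le_rfl)⟩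

theorem dn_mx {d : Ch P} {a : P} (a1 : a ∈ d.1) (a2 : a ∈ A) (a3 : 0 < e d.bot a) :
    Kh11.Ch.dn d a (Ch.bot_le a1) ∈ Mx A e := by
  have b : (Kh11.Ch.dn d a (Ch.bot_le a1)).bot = d.bot :=
    Ch.bot_eq (mem_dn.2 ⟨d.bot_mem, Ch.bot_le a1⟩) fun _ k => Ch.bot_le (mem_dn.1 k).1
  exact ⟨(top_dn a1 _).symm ▸ a2, by rwa [top_dn a1, b]⟩

theorem ws1 : WS (Mx (Inn A) e) (XX A e) id := by
  refine WS.comp (f := id) (g := id) (B := Mx A e) (WS.of_ge (fun _ k => mx_mono inn_sub k)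
    (fun _ _ _ _ l => l) fun d hd => ?_) (WS.of_int' (mx_xx subset_rfl) fun d hd => ?_)
  · have : Ctr {i | i ∈ Inn A ∧ d.top ≤ i} := by
      by_cases k : d.top ∈ Inn A
      exacts [sctr_min ⟨k, le_rfl⟩ fun _ j => j.2,
        Nice.ctr_ge inn_up.ordConnected h.ni ⟨k, h.ex hd.1⟩]
    convert ctr_over (fun _ => True) trivial this using 1
    exact Set.ext fun c => ⟨fun k => ⟨k.2, k.1.1, trivial⟩, fun k =>
      ⟨⟨k.2.1, h.z.up (dom_top k.2.1) k.1 hd.2⟩, k.1⟩⟩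
  · obtain ⟨a1, a2, a3⟩ := h.xx_tw hd
    exact ⟨_, h.dn_mx a1 a2 a3, dn_le, fun b hb l => le_dn l (le_tw (l b.top_mem) hb.1)⟩

theorem ws2 : WS {D | Mt (Ch.top ⁻¹' A) D ∧ 0 < Hp13.rev e D.bot D.top} (XX A e) Ch.top := by
  refine WS.of_le (fun D ⟨⟨c, c1, c2⟩, k⟩ => ⟨_, Ch.le_top c1 c.top_mem, c2, k.trans_le (h.le c2
    le_rfl (Ch.bot_anti D.bot_le_top) (bot_le_cm (Or.inr (Ch.bot_le c1))) le_rfl)⟩)
    (fun _ _ _ _ l => Ch.top_mono l) fun d hd => ?_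
  obtain ⟨a1, a2, a3⟩ := h.xx_tw hd
  set a := tw A d
  have m : Mt {x | x ≤ a ∧ 0 < e d.bot x} d := ⟨a, a1, le_rfl, a3⟩
  have z := h.add a2 le_rfl le_rfl (Ch.bot_le a1)
  have r : ∀ c ∈ {c : Ch P | c.bot ≤ a ∧ e d.bot c.bot ≤ 0}, ∀ c' ≤ d, c ≤ c' →
      c' ∈ {c : Ch P | c.bot ≤ a ∧ e d.bot c.bot ≤ 0} := fun c k c' l j =>
    ⟨(Ch.bot_anti j).trans k.1, (h.le a2 le_rfl (Ch.bot_anti l) (Ch.bot_anti j) k.1).trans k.2⟩
  convert ctr3 (d := d) (h := rs {x | x ≤ a ∧ 0 < e d.bot x} d) (m := Kh11.Ch.dn d a (Ch.bot_le a1))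
    (fun x k => mem_dn.2 ⟨((mem_rs m).1 k).1, ((mem_rs m).1 k).2.1⟩) dn_le (p := Ch.top ⁻¹' A)
    (q := {c | c.top ≤ a ∧ 0 < e d.bot c.bot}) (fun c l k => le_dn l (le_tw (l c.top_mem) k))
    (h.conv.out a2 a2 ⟨le_tw a1 ⟨le_rfl, a3⟩, (tw_mem m).2.1⟩) (h.dn_mx a1 a2 a3).1
    (fun c l k x i => (mem_rs m).2 ⟨l i, (Ch.le_top i).trans k.1, k.2.trans_le
      (h.le a2 le_rfl (Ch.bot_anti l) (Ch.bot_le i) ((Ch.le_top i).trans k.1))⟩)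
    ⟨(tw_mem m).2.1, ((mem_rs m).1 (Ch.bot_mem _)).2.2⟩ r
    (r (Ch.pt d.bot) ⟨by simpa using Ch.bot_le a1, by simp only [Ch.bot_pt]; omega⟩ _ dn_le
      (Ch.pt_le.2 (mem_dn.2 ⟨d.bot_mem, Ch.bot_le a1⟩))) using 1
  refine Set.ext fun D => ⟨fun ⟨⟨⟨c, c1, c2⟩, k⟩, l⟩ => ?_,
    fun ⟨l, k, ⟨c, c1, c2⟩, b, b1, b2⟩ => ⟨⟨k, ?_⟩, l _ D.top_mem⟩⟩
  · have t : D.bot.top ≤ a :=
      (Ch.top_mono (Ch.bot_le c1)).trans (le_tw (l (Ch.le_top c1 c.top_mem)) c2)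
    have t' := D.bot.bot_le_top.trans t
    have u := Ch.bot_anti D.bot_le_top
    have := h.add a2 (Ch.bot_anti l) u t'
    have := h.nn a2 (Ch.bot_anti l) (u.trans t')
    have := h.le1 a2 ((Ch.bot_anti l).trans u) t'
    have : 0 < e D.top.bot D.bot.bot := k
    exact ⟨fun _ i => (Ch.le_top i).trans l, ⟨c, c1, c2⟩, ⟨_, D.bot_mem, t, by omega⟩,
      _, D.top_mem, u.trans t', by omega⟩
  · have t' := (bot_le_cm (Or.inr (Ch.bot_le c1))).trans c2.1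
    have := h.add a2 (Ch.bot_anti (l _ D.top_mem)) (Ch.bot_anti D.bot_le_top) t'
    have := c2.2.trans_le (h.le a2 le_rfl (Ch.bot_anti (l _ c1)) (Ch.bot_anti (Ch.bot_le c1)) t')
    have := (r b b2 _ (l _ D.top_mem) (Ch.le_top b1)).2
    show 0 < e D.top.bot D.bot.bot
    omega

variable [IsCoc (Ch.top ⁻¹' A) (Hp13.rev e)] {E : Set (Ch P)}

theorem ws3 : WS (LA (Ch.top ⁻¹' A) (Hp13.rev e)) (XX A e) (Ch.top ∘ ch) := by
  convert (h.rev.ws fun _ k => ⟨Mt.dom k.1, k.2⟩).comp h.ws2 using 1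
  exact Set.ext fun p => ⟨fun k => ⟨k, (ch_mem p).2⟩, fun k => k.1⟩

theorem tch_of (hE : IsCmp (XX A e) E) {a b b' : Ch P} (l : b ≤ b') (k : b.top ∉ A)
    (k' : b'.top ∉ A) (j : 0 < e b'.bot b.bot) (ha : a.top ∈ A) (c : Cm a b) (c' : Cm a b')
    (i : a ∈ E ∨ b' ∈ E) : Tch _ _ {p | p ∈ LA (Ch.top ⁻¹' A) (Hp13.rev e) ∧ (Ch.top ∘ ch) p ∈ E} := by
  have u : ∀ x ∈ (Ch.pr b b' l).1, Cm a x := fun x k => (mem_pr.1 k).elim (· ▸ c) (· ▸ c')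
  have m : Mt (Ch.top ⁻¹' A) ((Ch.pr b b' l).ins a u) := ⟨a, mem_insert_self _ _, ha⟩
  have q : Ch.pr b b' l ∈ Qe (Ch.top ⁻¹' A) (Hp13.rev e) :=
    ⟨⟨a, ha, u⟩, by simpa [Hp13.rev] using j⟩
  refine ⟨cel ⟨m.dom, h.rev.up m.dom (Ch.le_ins _ _ _) q.2⟩, ⟨m, ?_⟩, cel q,
    fun ⟨x, x1, x2⟩ => ((mem_pr (h := l)).1 x1).elim (fun o => k (o ▸ x2)) fun o => k' (o ▸ x2),
    h.rev.ch_le.1 (Ch.le_ins _ _ u)⟩
  exact i.elim (hE.upper h.xx_up (Ch.le_top (mem_insert_self _ _)))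
    (hE.upper h.xx_up (Ch.le_top (Ch.le_ins _ _ u (mem_pr.2 (Or.inr rfl)))))

theorem tch (hE : IsCmp (XX A e) E) (t : Tc (Inn A) e {c | c ∈ Mx (Inn A) e ∧ id c ∈ E}) :
    Tch _ _ {p | p ∈ LA (Ch.top ⁻¹' A) (Hp13.rev e) ∧ (Ch.top ∘ ch) p ∈ E} := by
  obtain ⟨c, ⟨c1, c2⟩, x, x1, y, y1, l, y2, k⟩ := t
  by_cases j : y ∈ A
  · obtain ⟨-, o, o1, o2⟩ : y ∈ Fr A := by_contra fun i => y2 ⟨j, i⟩
    exact h.tch_of hE (a := Ch.pt y) (le_bt (Ch.pr y o o2) x (by simpa using l))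
      (by simpa using o1) (by simpa using o1) (by simpa using k) (by simpa using j)
      (Or.inl (by simp [Ch.pt_le])) (Or.inl (by simp [Ch.pt_le])) (Or.inr (hE.upper h.xx_up
        (pr_le (h := l) (by simp) (by simp)) (hE.clopen c2 ⟨y, by simp, j, by simpa using k⟩
          (Or.inr (pr_le x1 y1)))))
  · exact h.tch_of hE (a := c) (b := Ch.pt y) (b' := Ch.pr x y l) (by simp [Ch.pt_le])
      (by simpa using j) (by simpa using j) (by simpa using k) c1.1.1 (Or.inr (Ch.pt_le.2 y1))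
      (Or.inr (pr_le x1 y1)) (Or.inl c2)

theorem nm_eq (hE : IsCmp (XX A e) E) {t : Finset (Ch P)}
    (ht : ∀ d, d ∈ t ↔ d ∈ SS A e {c | c ∈ Mx (Inn A) e ∧ id c ∈ E}) :
    nm (Ch.top ⁻¹' A) (cnt (dn {p | p ∈ LA (Ch.top ⁻¹' A) (Hp13.rev e) ∧ (Ch.top ∘ ch) p ∈ E})) =
      ∑ d ∈ t, d.sg := by
  have hD := h.ws3.isCmp_pre hE
  have sat := (Nice.sd h.conv h.nice).sat h.rev.mono hD.sub fun _ a _ b => hD.clopen a b
  set D := {p | p ∈ LA (Ch.top ⁻¹' A) (Hp13.rev e) ∧ (Ch.top ∘ ch) p ∈ E}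
  have key : ∀ F : Ch (Ch P), F.top.top ∈ Om A →
      (F ∈ ch '' dn D ↔ F.top ∈ t ∧ 0 < e F.top.bot F.bot.bot) := fun F o => by
    refine ⟨fun ⟨q, ⟨p, hp, l⟩, k⟩ => ?_, fun ⟨k, j⟩ => ?_⟩
    · subst k
      have j : 0 < e (ch q).top.bot (ch q).bot.bot := (ch_mem q).2
      have l' : (ch q).top ≤ (ch p).top := Ch.top_mono (lv_ch_le l)
      obtain ⟨a1, a2, a3⟩ := h.xx_tw (hE.sub hp.2)
      obtain ⟨o1, a, ha, o2⟩ := o
      have u := ((ch p).top.total (l' (Ch.top_mem _)) a1).resolve_right fun i =>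
        o1 (h.conv.out a2 ha ⟨i, o2⟩)
      have m := h.dn_mx a1 a2 a3
      obtain ⟨i, i1, i2⟩ := h.ex m.1
      exact ⟨(ht _).2 ⟨o1, j.trans_le (h.le ha le_rfl (Ch.bot_anti (ch q).bot_le_top)
        (bot_le_cm (Or.inr (ch q).bot_le_top)) o2), tp _ i i2, ⟨⟨by simpa using i1,
          h.z.up (dom_top (by simpa using i1)) (le_tp _ i i2) m.2⟩, hE.upper h.xx_up (le_tp _ i i2)
            (hE.clopen hp.2 (mx_xx subset_rfl m) (Or.inr dn_le))⟩,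
        (le_dn l' u).trans (le_tp _ i i2)⟩, j⟩
    · obtain ⟨-, -, c, ⟨c1, c2⟩, l⟩ := (ht _).1 k
      have m : Mt (Ch.top ⁻¹' A) (tp F c l) := ⟨c, by simp, c1.1.1⟩
      have q : F ∈ Qe (Ch.top ⁻¹' A) (Hp13.rev e) := ⟨m.dom.mono (le_tp _ _ _), j⟩
      exact ⟨cel q, ⟨cel ⟨m.dom, h.rev.up m.dom (le_tp _ _ _) j⟩,
        ⟨m, show (tp F c l).top ∈ E from (top_tp F c l).symm ▸ c2⟩, h.rev.ch_le.1 (le_tp F c l)⟩, rfl⟩
  have om : ∀ d ∈ t, d.top ∈ Om A ∧ d ∈ Qe (Inn A) e := fun d k =>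
    let ⟨a, b, c, j, l⟩ := (ht d).1 k
    ⟨⟨a, _, j.1.1.1, Ch.top_mono l⟩, (dom_top j.1.1).mono l, b⟩
  rw [nm, ← sum_congr rfl fun d k => sum_flag h.z (om d k).2, sum_congr rfl
    (g := fun F => if F.top ∈ t ∧ 0 < e F.top.bot F.bot.bot then F.sg else 0) fun F k => ?_,
    ← sum_filter, ← sum_fiberwise_of_maps_to (t := t) (g := Ch.top) fun _ k => (mem_filter.1 k).2.1]
  · refine sum_congr rfl fun d hd => sum_congr (Finset.ext fun F => ?_) fun _ _ => rfl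
    simp only [mem_filter, mem_univ, true_and, Mcg32.om_sd]
    exact ⟨fun k => ⟨k.2, k.2 ▸ k.1.2.2⟩, fun ⟨k, j⟩ => by
      subst k; exact ⟨⟨(om _ hd).1, hd, j⟩, rfl⟩⟩
  · have k := (mem_filter.1 k).2
    have d : Dom (Ch.top ⁻¹' A) F :=
      let ⟨_, a, b, c⟩ := k; ⟨a, b, fun _ i => Or.inr ((Ch.le_top i).trans c)⟩
    rw [Mcg32.om_sd] at k
    rw [sat.cnt_bt h.rev.mono d, nlev_z1 h.rev d]
    split_ifs with j
    · rw [ind_of_mem ((key F k).2 j), mul_one]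
    · rw [ind_of_not fun i => j ((key F k).1 i), mul_zero]

theorem ds (hd : DSys A e) (hi : ix A e ≤ 0) :
    DS (Ch.top ⁻¹' A) (Hp13.rev e) ∧ idx (Ch.top ⁻¹' A) (Hp13.rev e) ≤ 0 := by
  refine ⟨⟨⟨h.rev.mono, inferInstance, fun D k => ?_⟩, fun D k => ?_, spn_of h.rev (h.spn hd.spn)⟩,
    (sum_eq_zero fun D k => ?_).le⟩
  · obtain ⟨E, hE, rfl⟩ := h.ws3.isCmp_ex k
    exact h.tch hE (hd.disc _ (h.ws1.isCmp_pre hE)).2
  · rw [chiC_eq_eu (Mf.sd h.mf) h.rev.mono k.sub (k.upper la_upper)]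
    obtain ⟨E, hE, rfl⟩ := h.ws3.isCmp_ex k
    rw [(h.ws3.restr (Kh11.clo_cmp hE)).eu_eq, ← (h.ws1.restr (Kh11.clo_cmp hE)).eu_eq]
    exact (hd.disc _ (h.ws1.isCmp_pre hE)).1
  · obtain ⟨E, hE, rfl⟩ := h.ws3.isCmp_ex (mem_cs.1 k)
    have hC := h.ws1.isCmp_pre hE
    have a := h.two_sum hC fun _ => Kh11.mem_fs
    have := sum_eq_zero_iff.1 (Nat.le_zero.1 hi) _ (mem_cs.2 hC)
    rw [h.nm_eq hE fun _ => Kh11.mem_fs]
    omega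

end Hy

/-- CONV -/
theorem convStmt : ConvStmt := fun _ hs ⟨t, f, e, hd, he, hi⟩ =>
  have ht := stt_desc hs hd
  have h : Hy t.A e := ⟨ht.conv, ht.mf, ht.nice, ht.thick, he.toZ1⟩
  have i : IsCoc (Ch.top ⁻¹' t.A) (rev e) := ⟨h.rev.coc⟩
  ⟨t.sd, f ∘ Ch.top, rev e, i, hd.step, h.ds he hi⟩

end Crest.Agent.X212.Conv33
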